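import Vale.Agent.P026.H392.Local
import Vale.Agent.P026.H142.Pair
import Vale.Agent.P026.H517.Positivity

/-!
# Real characters: symmetry of zeros; products of distinct real primitive characters
-/

open Complex Set Filter Topology Metric

namespace Vale.Agent.P026.H17

lemma conj_natCast_cpow (n : ℕ) (s : ℂ) :
    (starRingEnd ℂ) ((n : ℂ) ^ s) = (n : ℂ) ^ ((starRingEnd ℂ) s) := by
  have h := Complex.cpow_conj (n : ℂ) s (by
    rw [Complex.natCast_arg]
    exact Real.pi_pos.ne)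
  rw [h]
  simp

lemma LSeries_conj {f : ℕ → ℂ} (hf : ∀ n, (starRingEnd ℂ) (f n) = f n) (s : ℂ) :
    LSeries f ((starRingEnd ℂ) s) = (starRingEnd ℂ) (LSeries f s) := by
  rw [LSeries, LSeries, Complex.conj_tsum]
  refine tsum_congr fun n => ?_
  rcases Nat.eq_zero_or_pos n with rfl | hn
  · simp
  · rw [LSeries.term_of_ne_zero hn.ne', LSeries.term_of_ne_zero hn.ne', map_div₀, hf,
      conj_natCast_cpow]

theorem LFunction_conj {q : ℕ} [NeZero q] {χ : DirichletCharacter ℂ q} (hχ : χ ≠ 1)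
    (hr : ∀ n : ℕ, (starRingEnd ℂ) (χ n) = χ n) (s : ℂ) :
    DirichletCharacter.LFunction χ ((starRingEnd ℂ) s)
      = (starRingEnd ℂ) (DirichletCharacter.LFunction χ s) := by
  set L := DirichletCharacter.LFunction χ with hL
  have hd : Differentiable ℂ L := DirichletCharacter.differentiable_LFunction hχ
  set G : ℂ → ℂ := fun z => (starRingEnd ℂ) (L ((starRingEnd ℂ) z)) with hG
  have hGd : Differentiable ℂ G := by
    intro z
    have h1 : DifferentiableAt ℂ L ((starRingEnd ℂ) z) := hd _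
    have h2 := h1.conj_conj
    rw [Complex.conj_conj] at h2
    exact h2
  have heq : L = G := by
    refine AnalyticOnNhd.eq_of_eventuallyEq (z₀ := (2:ℂ)) (𝕜 := ℂ) (fun z _ => hd.analyticAt z)
      (fun z _ => hGd.analyticAt z) ?_
    have hmem : {z : ℂ | 1 < z.re} ∈ 𝓝 (2:ℂ) :=
      (isOpen_lt continuous_const Complex.continuous_re).mem_nhds (by simp)
    filter_upwards [hmem] with z hz
    have hz' : 1 < ((starRingEnd ℂ) z).re := by rw [Complex.conj_re]; exact hz
    show L z = (starRingEnd ℂ) (L ((starRingEnd ℂ) z))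
    rw [hL, DirichletCharacter.LFunction_eq_LSeries χ hz,
      DirichletCharacter.LFunction_eq_LSeries χ hz',
      LSeries_conj (f := fun n : ℕ => χ n) hr, Complex.conj_conj]
  have h1 : L ((starRingEnd ℂ) s) = G ((starRingEnd ℂ) s) := congrFun heq _
  rw [h1, hG]
  simp only [Complex.conj_conj]

lemma conj_eq_of_sq {q : ℕ} {χ : DirichletCharacter ℂ q} (h : χ ^ 2 = 1) (n : ℕ) :
    (starRingEnd ℂ) (χ n) = χ n := by
  obtain ⟨r, -, hr⟩ := Vale.Agent.P026.H517.real_of_sq_eq_one χ h n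
  rw [hr, Complex.conj_ofReal]

open DirichletCharacter Vale.Agent.P026.H517 in
/-- The product of two distinct real primitive characters is not principal. -/
theorem prodChar_ne_one {q₁ q₂ : ℕ} [NeZero q₁] [NeZero q₂] {χ₁ : DirichletCharacter ℂ q₁}
    {χ₂ : DirichletCharacter ℂ q₂} (p1 : χ₁.IsPrimitive) (p2 : χ₂.IsPrimitive) (hs : χ₂ ^ 2 = 1)
    (hne : (⟨q₁, χ₁⟩ : Σ q : ℕ, DirichletCharacter ℂ q) ≠ ⟨q₂, χ₂⟩) :
    prodChar χ₁ χ₂ ≠ 1 := by
  intro hΨ1
  apply hne
  have : NeZero (q₁ * q₂) := ⟨Nat.mul_ne_zero (NeZero.ne q₁) (NeZero.ne q₂)⟩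
  have hinv : (changeLevel (dvd_mul_left q₂ q₁) χ₂) ^ 2 = 1 := by
    rw [← map_pow, hs, map_one]
  have heq : changeLevel (dvd_mul_right q₁ q₂) χ₁ = changeLevel (dvd_mul_left q₂ q₁) χ₂ := by
    unfold prodChar at hΨ1
    calc changeLevel (dvd_mul_right q₁ q₂) χ₁
        = changeLevel (dvd_mul_right q₁ q₂) χ₁ * (changeLevel (dvd_mul_left q₂ q₁) χ₂) ^ 2 := by
          rw [hinv, mul_one]
      _ = (changeLevel (dvd_mul_right q₁ q₂) χ₁ * changeLevel (dvd_mul_left q₂ q₁) χ₂)
            * changeLevel (dvd_mul_left q₂ q₁) χ₂ := by rw [sq, mul_assoc]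
      _ = _ := by rw [hΨ1, one_mul]
  have hq : q₁ = q₂ := by
    have e1 := conductor_changeLevel (χ := χ₁) (dvd_mul_right q₁ q₂)
    have e2 := conductor_changeLevel (χ := χ₂) (dvd_mul_left q₂ q₁)
    rw [heq] at e1
    rw [(isPrimitive_def _).mp p1] at e1
    rw [(isPrimitive_def _).mp p2] at e2
    rw [← e1, e2]
  subst hq
  congr 1
  exact changeLevel_injective (dvd_mul_right q₁ q₁) heq

end Vale.Agent.P026.H17
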