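import Vale.Agent.P026.H392.LocalB

/-!
# Landau's lemma for `L(s, χ)` with Vinogradov–Korobov upper bounds
-/

open Complex Set Filter Topology Metric

namespace Vale.Agent.P026.H17

open Vale.Agent.P026.H392

/-- Termwise comparison. -/
lemma term_cmp {q : ℕ} [NeZero q] (χ : DirichletCharacter ℂ q) {c₀ : ℂ} {k Λ R : ℝ}
    (hΛ0 : 0 < Λ) (hlogΛ : 20 ≤ Real.log Λ) (hR : R = Real.log Λ / Λ) (hk0 : 0 < k)
    (hc₀re : c₀.re = 1 + k) (hne : ∀ s ∈ closedBall c₀ R, s ≠ 1 ∨ χ ≠ 1)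
    (F : Finset ℂ) (hF : ∀ ρ ∈ F, ρ ∈ closedBall c₀ (2 / Λ)) :
    0.99 * ∑ ρ ∈ F, (analyticOrderNatAt (DirichletCharacter.LFunction χ) ρ : ℝ) *
        ((1 + k - ρ.re) / ‖ρ - c₀‖ ^ 2)
      ≤ ∑ ρ ∈ F, (analyticOrderNatAt (DirichletCharacter.LFunction χ) ρ : ℝ) *
          ((c₀.re - ρ.re) * (1 / ‖ρ - c₀‖ ^ 2 - 1 / R ^ 2)) := by
  rw [Finset.mul_sum]
  refine Finset.sum_le_sum fun ρ hρ => ?_
  rcases Nat.eq_zero_or_pos (analyticOrderNatAt (DirichletCharacter.LFunction χ) ρ) with h0 | h0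
  · rw [h0]; simp
  · have hfz : DirichletCharacter.LFunction χ ρ = 0 :=
      apply_eq_zero_of_analyticOrderNatAt_ne_zero h0.ne'
    have hρR : ρ ∈ closedBall c₀ R := by
      refine closedBall_subset_closedBall ?_ (hF ρ hρ)
      rw [hR]
      exact div_le_div_of_nonneg_right (by linarith) hΛ0.le
    have hρ1 : ρ.re < 1 := by
      by_contra hcon
      exact DirichletCharacter.LFunction_ne_zero_of_one_le_re χ (hne ρ hρR).symm
        (not_lt.1 hcon) hfz
    have h2 : ‖ρ - c₀‖ ≤ 2 / Λ := by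
      have := hF ρ hρ
      rwa [mem_closedBall, dist_eq_norm] at this
    have h3 : 0 < ‖ρ - c₀‖ := by
      rw [norm_pos_iff, sub_ne_zero]
      intro h
      rw [h] at hρ1
      linarith
    have hpos : 0 < 1 + k - ρ.re := by linarith
    have h4 : 1 / R ^ 2 ≤ 0.01 * (1 / ‖ρ - c₀‖ ^ 2) := by
      have h5 : 1 / R ^ 2 = Λ ^ 2 / (Real.log Λ) ^ 2 := by
        rw [hR, div_pow, one_div_div]
      have h6 : Λ ^ 2 / 4 ≤ 1 / ‖ρ - c₀‖ ^ 2 := by
        rw [le_div_iff₀ (by positivity)]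
        have h7 : ‖ρ - c₀‖ ^ 2 ≤ (2 / Λ) ^ 2 := pow_le_pow_left₀ h3.le h2 2
        calc Λ ^ 2 / 4 * ‖ρ - c₀‖ ^ 2 ≤ Λ ^ 2 / 4 * (2 / Λ) ^ 2 :=
              mul_le_mul_of_nonneg_left h7 (by positivity)
          _ = 1 := by field_simp; norm_num
      have h8 : Λ ^ 2 / (Real.log Λ) ^ 2 ≤ Λ ^ 2 / 400 := by
        refine div_le_div_of_nonneg_left (by positivity) (by norm_num) ?_
        nlinarith
      rw [h5]
      linarith
    rw [hc₀re]
    have h9 : 0.99 * ((1 + k - ρ.re) / ‖ρ - c₀‖ ^ 2)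
        ≤ (1 + k - ρ.re) * (1 / ‖ρ - c₀‖ ^ 2 - 1 / R ^ 2) := by
      have : 0.99 * ((1 + k - ρ.re) / ‖ρ - c₀‖ ^ 2)
          = (1 + k - ρ.re) * (0.99 * (1 / ‖ρ - c₀‖ ^ 2)) := by ring
      rw [this]
      refine mul_le_mul_of_nonneg_left ?_ hpos.le
      linarith
    have h10 : (0:ℝ) ≤ (analyticOrderNatAt (DirichletCharacter.LFunction χ) ρ : ℝ) :=
      Nat.cast_nonneg _
    calc 0.99 * ((analyticOrderNatAt (DirichletCharacter.LFunction χ) ρ : ℝ) *
          ((1 + k - ρ.re) / ‖ρ - c₀‖ ^ 2))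
        = (analyticOrderNatAt (DirichletCharacter.LFunction χ) ρ : ℝ) *
          (0.99 * ((1 + k - ρ.re) / ‖ρ - c₀‖ ^ 2)) := by ring
      _ ≤ _ := mul_le_mul_of_nonneg_left h9 h10

/-- The bound of `2M/R`. -/
lemma two_mul_log_div {κ Λ l r R D a k U : ℝ} (hκ0 : 0 < κ) (ha : 0 < a)
    (hΛ0 : 0 < Λ) (hlogΛ : 20 ≤ Real.log Λ) (haΛ : 1 / a ≤ Λ)
    (hcube : l ^ 2 * Real.log Λ ≤ Λ^3) (hl : 0 ≤ l)
    (hr : r = 1 / Λ) (hR : R = Real.log Λ / Λ) (hk : k = a / Λ) (hU1 : 1 ≤ U)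
    (harith : (r / R) * Real.log (2 * U / r) ≤ (6 * κ + 4) * (r * Λ + r ^ (3/2 : ℝ) * l)) :
    2 * Real.log (2 * U / k) / R ≤ 2 * ((6 * κ + 4) * 2 + 1) * Λ := by
  have hr0 : 0 < r := by rw [hr]; positivity
  have h32 : r ^ (3/2:ℝ) * l ≤ 1 := by
    have h3 : (r ^ (3/2:ℝ) * l)^2 ≤ 1^2 := by
      rw [mul_pow, ← Real.rpow_natCast, ← Real.rpow_mul (by positivity)]
      norm_num
      rw [hr, one_div, inv_pow, inv_mul_le_iff₀ (by positivity), mul_one]
      calc l^2 = l^2 * 1 := by ring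
        _ ≤ l^2 * Real.log Λ := mul_le_mul_of_nonneg_left (by linarith) (by positivity)
        _ ≤ Λ^3 := hcube
    exact le_of_sq_le_sq h3 zero_le_one
  have hrΛ : r * Λ = 1 := by rw [hr]; field_simp
  have hloga : (r / R) * Real.log (1 / a) ≤ 1 := by
    have h1 : Real.log (1 / a) ≤ Real.log Λ := Real.log_le_log (by positivity) haΛ
    have h2 : r / R = 1 / Real.log Λ := by
      rw [hr, hR]
      have : Real.log Λ ≠ 0 := by linarith
      field_simp
    rw [h2, one_div, inv_mul_le_iff₀ (by linarith), mul_one]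
    exact h1
  have hlogsplit : Real.log (2 * U / k) = Real.log (2 * U / r) + Real.log (1 / a) := by
    have : 2 * U / k = (2 * U / r) * (1 / a) := by
      rw [hk, hr]
      field_simp
    rw [this, Real.log_mul (by positivity) (by positivity)]
  have h1 : (r / R) * Real.log (2 * U / k) ≤ (6 * κ + 4) * 2 + 1 := by
    rw [hlogsplit, mul_add]
    have h2 : (6 * κ + 4) * (r * Λ + r ^ (3/2 : ℝ) * l) ≤ (6 * κ + 4) * 2 := by
      refine mul_le_mul_of_nonneg_left ?_ (by positivity)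
      rw [hrΛ]; linarith
    linarith
  have h3 : 2 * Real.log (2 * U / k) / R = 2 * Λ * ((r / R) * Real.log (2 * U / k)) := by
    calc 2 * Real.log (2 * U / k) / R = 2 * (r * Λ) * Real.log (2 * U / k) / R := by
          rw [hrΛ, mul_one]
      _ = _ := by ring
  rw [h3]
  calc 2 * Λ * ((r / R) * Real.log (2 * U / k)) ≤ 2 * Λ * ((6 * κ + 4) * 2 + 1) :=
        mul_le_mul_of_nonneg_left h1 (by positivity)
    _ = _ := by ring

/-- The terms `m(ρ) Re(1/(c-ρ))` of zeros very close to `c`, against `Re L'/L(c)`. -/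
theorem landau_L {C c : ℝ} (hC : 0 < C) (hc : 0 < c) (hVK : VKSum C c) :
    ∃ C₁ : ℝ, 1 ≤ C₁ ∧ ∀ a : ℝ, 0 < a → a ≤ 1 → ∃ M₁ : ℝ, 3 ≤ M₁ ∧
      ∀ Q T : ℝ, 1 ≤ Q → 3 ≤ T → ∀ M : ℝ, M₁ ≤ M →
      ∀ (q : ℕ) [NeZero q] (χ : DirichletCharacter ℂ q), (q:ℝ) ≤ Q^2 →
      ∀ t : ℝ, |t| ≤ 2 * T → (χ ≠ 1 ∨ (q = 1 ∧ 1 ≤ |t|)) →
      ∀ F : Finset ℂ,
        (∀ ρ ∈ F, ρ ∈ closedBall ((((1 + a / (LL Q T + M) : ℝ)) : ℂ) + t * I) (2 / (LL Q T + M))) →
        0.99 * ∑ ρ ∈ F, (analyticOrderNatAt (DirichletCharacter.LFunction χ) ρ : ℝ) *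
            ((1 + a / (LL Q T + M) - ρ.re) /
              ‖ρ - ((((1 + a / (LL Q T + M) : ℝ)) : ℂ) + t * I)‖ ^ 2)
          ≤ (logDeriv (DirichletCharacter.LFunction χ)
              ((((1 + a / (LL Q T + M) : ℝ)) : ℂ) + t * I)).re + C₁ * (LL Q T + M) := by
  obtain ⟨κ, d₀, M₀, hκ, hd₀, hd₀', hM₀, HU⟩ := L_upper hC hc hVK
  obtain ⟨r₀, hr₀, hr₀', hnear⟩ := near_one
  have hκ0 : 0 < κ := by linarith
  refine ⟨2 * ((6 * κ + 4) * 2 + 1), by linarith, ?_⟩
  intro a ha ha1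
  set M₁ := M₀ + Real.exp 20 + 1 / r₀ + (1 / d₀)^2 + 1 / a with hM₁
  have hexp20 : (20:ℝ) < Real.exp 20 := by
    have := Real.add_one_le_exp (20:ℝ)
    linarith
  have e1 : 0 < 1 / r₀ := by positivity
  have e2 : 0 < (1 / d₀)^2 := by positivity
  have e3 : 0 < 1 / a := by positivity
  refine ⟨M₁, by linarith, ?_⟩
  intro Q T hQ hT M hM q _ χ hq t ht hχ F hF
  have hLL := LL_nonneg hQ hT
  have hlT := log_T_pos hT
  set Λ := LL Q T + M with hΛ
  have hΛe : Real.exp 20 ≤ Λ := by linarith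
  have hΛ20 : 20 < Λ := by linarith
  have hΛ0 : 0 < Λ := by linarith
  have hlogΛ : 20 ≤ Real.log Λ := by rwa [Real.le_log_iff_exp_le hΛ0]
  have hcube : (Real.log T)^2 * Real.log Λ ≤ Λ^3 := lamb_cube hQ hT (by linarith)
  set r : ℝ := 1 / Λ with hr
  have hr0' : 0 < r := by positivity
  have hrr₀ : r ≤ r₀ := by
    have h1 : 1 / r₀ ≤ Λ := by linarith
    rw [div_le_iff₀ hr₀] at h1
    rw [hr, div_le_iff₀ hΛ0]
    linarith
  have hr16 : r ≤ 1/16 := hrr₀.trans hr₀'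
  set R := Real.log Λ / Λ with hR
  have hRmax : R = max (16 * r) (Real.log Λ / Λ) := by
    rw [hR, max_eq_right]
    rw [hr, mul_one_div]
    exact div_le_div_of_nonneg_right (by linarith) hΛ0.le
  have hR0 : 0 < R := by rw [hR]; exact div_pos (by linarith) hΛ0
  have hRd : R ≤ 2 * d₀ := by
    refine (log_div_le_of_sqrt (by linarith)).trans ?_
    have h1 : 1 / d₀ ≤ Real.sqrt Λ := by
      rw [show (1/d₀:ℝ) = Real.sqrt ((1/d₀)^2) by rw [Real.sqrt_sq (by positivity)]]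
      refine Real.sqrt_le_sqrt ?_
      linarith
    have h2 : 0 < Real.sqrt Λ := Real.sqrt_pos.2 hΛ0
    rw [div_le_iff₀ h2]
    rw [div_le_iff₀ hd₀] at h1
    linarith
  have hR14 : R ≤ 1/4 := by linarith
  set D := MM M₀ Q T (R/2) with hD
  have hD0 : 0 ≤ D := by
    have h2 : 0 ≤ Real.sqrt (R/2) * Real.log T := by positivity
    rw [hD]; unfold MM; linarith
  have hDle : D ≤ Λ + Real.sqrt R * Real.log T := by
    have h1 : Real.sqrt (R/2) ≤ Real.sqrt R := Real.sqrt_le_sqrt (by linarith)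
    have h2 : Real.sqrt (R/2) * Real.log T ≤ Real.sqrt R * Real.log T :=
      mul_le_mul_of_nonneg_right h1 (by linarith)
    rw [hD]; unfold MM; linarith
  have harith := local_arith (κ := κ) (Λ := Λ) (l := Real.log T) (r := r) (R := R) (D := D) hκ
    (by linarith) (by linarith) hcube le_rfl hr16 hRmax hDle hD0
  -- the point
  set k : ℝ := a / Λ with hk
  have hk0 : 0 < k := by positivity
  have hkr : k ≤ r := by rw [hk, hr]; exact div_le_div_of_nonneg_right ha1 hΛ0.le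
  set c₀ : ℂ := (((1 + k : ℝ)) : ℂ) + t * I with hc₀
  have hc₀re : c₀.re = 1 + k := by simp [hc₀]
  have hc₀im : c₀.im = t := by simp [hc₀]
  have hcre : 1 < c₀.re := by rw [hc₀re]; linarith
  set U := Real.exp (R * κ * D) * (4 + κ * D) with hU
  have hU1 : 1 ≤ U := by
    have h1 : 1 ≤ Real.exp (R * κ * D) := Real.one_le_exp (by positivity)
    have h2 : 1 ≤ 4 + κ * D := by
      have : 0 ≤ κ * D := by positivity
      linarith
    calc (1:ℝ) = 1 * 1 := (one_mul 1).symm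
      _ ≤ _ := mul_le_mul h1 h2 zero_le_one (by positivity)
  have hr1 : r ≤ 1 := by linarith
  have hUb : ∀ s ∈ closedBall c₀ R, ‖DirichletCharacter.LFunction χ s‖ ≤ U := by
    intro s hs
    rw [mem_closedBall, dist_eq_norm] at hs
    have hre := (Complex.abs_re_le_norm (s - c₀)).trans hs
    have him := (Complex.abs_im_le_norm (s - c₀)).trans hs
    rw [Complex.sub_re, hc₀re, abs_le] at hre
    rw [Complex.sub_im, hc₀im] at him
    have hxx := HU Q T (R/2) hQ hT (by linarith) (by linarith) q χ hq s (by linarith [hre.1])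
      (by linarith [hre.2]) (by
        have : |s.im| ≤ |s.im - t| + |t| := by
          calc |s.im| = |(s.im - t) + t| := by ring_nf
            _ ≤ _ := abs_add_le _ _
        linarith) (by
        rcases hχ with h | h
        · exact Or.inl h
        · refine Or.inr ⟨h.1, ?_⟩
          have : |t| ≤ |s.im - t| + |s.im| := by
            calc |t| = |(t - s.im) + s.im| := by ring_nf
              _ ≤ |t - s.im| + |s.im| := abs_add_le _ _
              _ = _ := by rw [abs_sub_comm]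
          linarith [h.2])
    rw [show 2 * (R/2) * κ * MM M₀ Q T (R/2) = R * κ * D by rw [hD]; ring] at hxx
    exact hxx
  have hne : ∀ s ∈ closedBall c₀ R, s ≠ 1 ∨ χ ≠ 1 := by
    intro s hs
    rcases hχ with h | h
    · exact Or.inr h
    · left
      intro h1
      rw [h1, mem_closedBall, dist_eq_norm] at hs
      have h2 := Complex.abs_im_le_norm (1 - c₀)
      rw [Complex.sub_im, Complex.one_im, zero_sub, abs_neg, hc₀im] at h2
      linarith [h.2]
  obtain ⟨hz1, -⟩ := hnear k hk0 (hkr.trans hrr₀)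
  have hcc : ((c₀.re : ℝ) : ℂ) = (((1 + k : ℝ)) : ℂ) := by rw [hc₀re]
  have hlow : k / 2 ≤ ‖DirichletCharacter.LFunction χ c₀‖ := by
    have h1 := norm_LFunction_ge χ hcre
    rw [hcc] at h1
    have h2 : ‖DirichletCharacter.LFunction χ c₀‖ * ‖riemannZeta (((1 + k : ℝ)) : ℂ)‖
        ≤ ‖DirichletCharacter.LFunction χ c₀‖ * (2 / k) :=
      mul_le_mul_of_nonneg_left hz1 (norm_nonneg _)
    have h3 : 1 ≤ ‖DirichletCharacter.LFunction χ c₀‖ * (2 / k) := h1.trans h2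
    have h4 : ‖DirichletCharacter.LFunction χ c₀‖ * (2 / k) * (k / 2)
        = ‖DirichletCharacter.LFunction χ c₀‖ := by
      field_simp
    calc k / 2 = 1 * (k / 2) := by ring
      _ ≤ ‖DirichletCharacter.LFunction χ c₀‖ * (2 / k) * (k / 2) :=
        mul_le_mul_of_nonneg_right h3 (by positivity)
      _ = _ := h4
  have harg : 1 < 2 * U / k := by
    rw [lt_div_iff₀ hk0]; linarith
  have hexp : Real.exp (Real.log (2 * U / k)) = 2 * U / k := Real.exp_log (by linarith)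
  have key := landau_at (f := DirichletCharacter.LFunction χ) (c := c₀) (R := R)
    (M := Real.log (2 * U / k)) hR0 (Real.log_pos harg)
    (fun s hs => analyticAt_LFunction χ (hne s hs))
    (by
      intro h
      rw [h, norm_zero] at hlow
      linarith)
    (by
      intro s hs
      rw [hexp]
      calc _ ≤ U := hUb s hs
        _ = 2 * U / k * (k / 2) := by field_simp
        _ ≤ _ := mul_le_mul_of_nonneg_left hlow (by positivity))
    (by
      intro s hs h0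
      by_contra hcon
      rw [hc₀re] at hcon
      have h1 : 1 ≤ s.re := by linarith
      exact DirichletCharacter.LFunction_ne_zero_of_one_le_re χ (hne s hs).symm h1 h0)
    F (by
      intro ρ hρ
      refine closedBall_subset_closedBall ?_ (hF ρ hρ)
      rw [hR]
      exact div_le_div_of_nonneg_right (by linarith) hΛ0.le)
  have hbound := two_mul_log_div (κ := κ) (Λ := Λ) (l := Real.log T) (r := r) (R := R) (D := D)
    (a := a) (k := k) (U := U) hκ0 ha hΛ0 hlogΛ (by linarith) hcube (by linarith) hr hR hk hU1 harith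
  have hterm := term_cmp χ (c₀ := c₀) (k := k) (Λ := Λ) (R := R) hΛ0 hlogΛ hR hk0 hc₀re hne F hF
  linarith

end Vale.Agent.P026.H17
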