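import Vale.Agent.P026.H517.Positivity
import Vale.Agent.P026.H392.Bounds

/-!
# Real parts of `L'/L` to the right of `1` as sums over prime powers; positivity
-/

open Complex Set Filter Topology Metric

namespace Vale.Agent.P026.H17

open Vale.Agent.P026.H517

/-- The coefficient `Re (χ(n) n^{-it})`. -/
noncomputable def cf {q : ℕ} (χ : DirichletCharacter ℂ q) (t : ℝ) (n : ℕ) : ℝ :=
  (χ n * (n : ℂ) ^ (-(t * I) : ℂ)).re

lemma summable_cf {q : ℕ} [NeZero q] (χ : DirichletCharacter ℂ q) (k t : ℝ) (hk : 0 < k) :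
    Summable (fun n : ℕ => wt 0 k n * cf χ t n) := by
  have h := summable_wt χ 0 k t hk
  have h2 := (Complex.hasSum_re h.hasSum).summable
  refine h2.congr fun n => ?_
  rw [cf, Complex.re_ofReal_mul]

lemma re_logDeriv {q : ℕ} [NeZero q] (χ : DirichletCharacter ℂ q) (k t : ℝ) (hk : 0 < k) :
    (logDeriv (DirichletCharacter.LFunction χ) ((((1 + k : ℝ)) : ℂ) + t * I)).re
      = -∑' n : ℕ, wt 0 k n * cf χ t n := by
  have h := Dk_LFunction_eq χ 1 k t hk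
  have e : Dk 1 (DirichletCharacter.LFunction χ) ((1 : ℂ) + k + t * I)
      = logDeriv (DirichletCharacter.LFunction χ) ((1 : ℂ) + k + t * I) := by
    simp [Dk]
  rw [e] at h
  simp only [le_refl, tsub_eq_zero_of_le, Nat.factorial_zero, Nat.cast_one, div_one, one_mul] at h
  have e2 : ((((1 + k : ℝ)) : ℂ) + t * I) = (1 : ℂ) + k + t * I := by push_cast; ring
  rw [e2, h, Complex.neg_re, Complex.re_tsum (summable_wt χ 0 k t hk)]
  congr 1
  refine tsum_congr fun n => ?_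
  rw [cf, Complex.re_ofReal_mul]

lemma cf_norm_le {q : ℕ} (χ : DirichletCharacter ℂ q) (t : ℝ) {n : ℕ} (hn : 0 < n) :
    ‖χ n * (n : ℂ) ^ (-(t * I) : ℂ)‖ ≤ 1 := norm_twist_le χ t hn

/-- `3 + 4 cos θ + cos 2θ ≥ 0`. -/
lemma three_four_one {z : ℂ} (hz : ‖z‖ = 1) : 0 ≤ 3 + 4 * z.re + (z ^ 2).re := by
  have h : z.re ^ 2 + z.im ^ 2 = 1 := by
    have := Complex.sq_norm z
    rw [hz, Complex.normSq_apply] at this
    nlinarith
  have h2 : (z ^ 2).re = z.re ^ 2 - z.im ^ 2 := by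
    rw [sq, Complex.mul_re]; ring
  rw [h2]
  nlinarith [sq_nonneg (z.re + 1)]

lemma cf_one (t : ℝ) (n : ℕ) :
    cf (1 : DirichletCharacter ℂ 1) t n = ((n : ℂ) ^ (-(t * I) : ℂ)).re := by
  rw [cf]
  have h1 : (1 : DirichletCharacter ℂ 1) n = 1 := by
    rw [Subsingleton.elim ((n : ℕ) : ZMod 1) 1, map_one]
  rw [h1, one_mul]

lemma norm_cpow_it (t : ℝ) {n : ℕ} (hn : 0 < n) : ‖(n : ℂ) ^ (-(t * I) : ℂ)‖ = 1 := by
  rw [Complex.norm_natCast_cpow_of_pos hn]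
  have : (-(t * I) : ℂ).re = 0 := by simp
  rw [this, Real.rpow_zero]

lemma cf_one_zero {n : ℕ} : cf (1 : DirichletCharacter ℂ 1) 0 n = 1 := by
  rw [cf_one]; simp

/-- The `3-4-1` combination, `χ₂(n) = χ(n)²` whenever `χ(n) ≠ 0`. -/
lemma cf_341 {q q₂ : ℕ} (χ : DirichletCharacter ℂ q) (χ₂ : DirichletCharacter ℂ q₂)
    (h : ∀ n : ℕ, χ n ≠ 0 → χ₂ n = χ n ^ 2) (t : ℝ) {n : ℕ} (hn : 0 < n) :
    0 ≤ 3 * cf (1 : DirichletCharacter ℂ 1) 0 n + 4 * cf χ t n + cf χ₂ (2 * t) n := by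
  rw [cf_one_zero]
  by_cases h0 : χ n = 0
  · have h1 : cf χ t n = 0 := by rw [cf, h0]; simp
    have h2 : -1 ≤ cf χ₂ (2 * t) n := by
      have h3 := cf_norm_le χ₂ (2 * t) hn
      exact (abs_le.1 ((Complex.abs_re_le_norm _).trans h3)).1
    rw [h1]; linarith
  · have hχ : ‖χ n‖ = 1 := by
      have hu : IsUnit (n : ZMod q) := by
        by_contra hu
        exact h0 (χ.map_nonunit hu)
      obtain ⟨u, hu⟩ := hu
      rw [← hu]
      exact DirichletCharacter.unit_norm_eq_one χ u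
    have h1 : cf χ₂ (2 * t) n = ((χ n * (n : ℂ) ^ (-(t * I) : ℂ)) ^ 2).re := by
      rw [cf, h n h0, mul_pow, ← Complex.cpow_nat_mul]
      congr 3
      push_cast
      ring
    rw [h1, cf]
    have h2 := three_four_one (z := χ n * (n : ℂ) ^ (-(t * I) : ℂ)) (by
      rw [norm_mul, hχ, norm_cpow_it t hn, one_mul])
    linarith

/-- **`3-4-1` inequality for logarithmic derivatives.** -/
theorem pos_341 {q q₂ : ℕ} [NeZero q] [NeZero q₂] (χ : DirichletCharacter ℂ q)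
    (χ₂ : DirichletCharacter ℂ q₂) (h : ∀ n : ℕ, χ n ≠ 0 → χ₂ n = χ n ^ 2) (k t : ℝ)
    (hk : 0 < k) :
    3 * (logDeriv riemannZeta ((((1 + k : ℝ)) : ℂ) + (0 : ℝ) * I)).re
      + 4 * (logDeriv (DirichletCharacter.LFunction χ) ((((1 + k : ℝ)) : ℂ) + t * I)).re
      + (logDeriv (DirichletCharacter.LFunction χ₂) ((((1 + k : ℝ)) : ℂ) + (2 * t : ℝ) * I)).re
      ≤ 0 := by
  have hz : riemannZeta = DirichletCharacter.LFunction (1 : DirichletCharacter ℂ 1) :=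
    DirichletCharacter.LFunction_modOne_eq.symm
  rw [hz, re_logDeriv _ k 0 hk, re_logDeriv _ k t hk, re_logDeriv _ k (2 * t) hk]
  have s1 := (summable_cf (1 : DirichletCharacter ℂ 1) k 0 hk).mul_left 3
  have s2 := (summable_cf χ k t hk).mul_left 4
  have s3 := summable_cf χ₂ k (2 * t) hk
  have hsum : 3 * ∑' n : ℕ, wt 0 k n * cf (1 : DirichletCharacter ℂ 1) 0 n
      + 4 * ∑' n : ℕ, wt 0 k n * cf χ t n + ∑' n : ℕ, wt 0 k n * cf χ₂ (2 * t) n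
      = ∑' n : ℕ, wt 0 k n * (3 * cf (1 : DirichletCharacter ℂ 1) 0 n + 4 * cf χ t n
          + cf χ₂ (2 * t) n) := by
    rw [← tsum_mul_left, ← tsum_mul_left, ← s1.tsum_add s2, ← (s1.add s2).tsum_add s3]
    refine tsum_congr fun n => ?_
    ring
  have hnn : 0 ≤ ∑' n : ℕ, wt 0 k n * (3 * cf (1 : DirichletCharacter ℂ 1) 0 n + 4 * cf χ t n
          + cf χ₂ (2 * t) n) := by
    refine tsum_nonneg fun n => ?_
    rcases Nat.eq_zero_or_pos n with rfl | hn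
    · have : wt 0 k 0 = 0 := by simp [wt]
      rw [this]; simp
    · exact mul_nonneg (wt_nonneg _ _ _) (cf_341 χ χ₂ h t hn)
  linarith

/-- Positivity for `ζ(s) L(s, χ)`, `χ` real. -/
theorem pos_real {q : ℕ} [NeZero q] (χ : DirichletCharacter ℂ q) (k : ℝ) (hk : 0 < k) :
    (logDeriv riemannZeta ((((1 + k : ℝ)) : ℂ) + (0 : ℝ) * I)).re
      + (logDeriv (DirichletCharacter.LFunction χ) ((((1 + k : ℝ)) : ℂ) + (0 : ℝ) * I)).re ≤ 0 := by
  have hz : riemannZeta = DirichletCharacter.LFunction (1 : DirichletCharacter ℂ 1) :=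
    DirichletCharacter.LFunction_modOne_eq.symm
  rw [hz, re_logDeriv _ k 0 hk, re_logDeriv _ k 0 hk]
  have s1 := (summable_cf (1 : DirichletCharacter ℂ 1) k 0 hk)
  have s2 := (summable_cf χ k 0 hk)
  have hsum : ∑' n : ℕ, wt 0 k n * cf (1 : DirichletCharacter ℂ 1) 0 n
      + ∑' n : ℕ, wt 0 k n * cf χ 0 n
      = ∑' n : ℕ, wt 0 k n * (cf (1 : DirichletCharacter ℂ 1) 0 n + cf χ 0 n) := by
    rw [← s1.tsum_add s2]
    refine tsum_congr fun n => ?_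
    ring
  have hnn : 0 ≤ ∑' n : ℕ, wt 0 k n * (cf (1 : DirichletCharacter ℂ 1) 0 n + cf χ 0 n) := by
    refine tsum_nonneg fun n => ?_
    rcases Nat.eq_zero_or_pos n with rfl | hn
    · have : wt 0 k 0 = 0 := by simp [wt]
      rw [this]; simp
    · refine mul_nonneg (wt_nonneg _ _ _) ?_
      rw [cf_one_zero]
      have h3 := cf_norm_le χ 0 hn
      have := (abs_le.1 ((Complex.abs_re_le_norm _).trans h3)).1
      have h4 : cf χ 0 n = (χ n * (n : ℂ) ^ (-((0 : ℝ) * I) : ℂ)).re := rfl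
      linarith
  linarith

/-- Positivity for `ζ(s) L(s, χ₁) L(s, χ₂) L(s, χ₁χ₂)`, `χ₁`, `χ₂` real. -/
theorem pos_two_real {q₁ q₂ q₃ : ℕ} [NeZero q₁] [NeZero q₂] [NeZero q₃]
    (χ₁ : DirichletCharacter ℂ q₁) (χ₂ : DirichletCharacter ℂ q₂) (χ₃ : DirichletCharacter ℂ q₃)
    (h1 : ∀ n : ℕ, ∃ r : ℝ, -1 ≤ r ∧ χ₁ n = r) (h2 : ∀ n : ℕ, ∃ r : ℝ, -1 ≤ r ∧ χ₂ n = r)
    (h3 : ∀ n : ℕ, χ₃ n = χ₁ n * χ₂ n) (k : ℝ) (hk : 0 < k) :
    (logDeriv riemannZeta ((((1 + k : ℝ)) : ℂ) + (0 : ℝ) * I)).re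
      + (logDeriv (DirichletCharacter.LFunction χ₁) ((((1 + k : ℝ)) : ℂ) + (0 : ℝ) * I)).re
      + (logDeriv (DirichletCharacter.LFunction χ₂) ((((1 + k : ℝ)) : ℂ) + (0 : ℝ) * I)).re
      + (logDeriv (DirichletCharacter.LFunction χ₃) ((((1 + k : ℝ)) : ℂ) + (0 : ℝ) * I)).re
      ≤ 0 := by
  have hz : riemannZeta = DirichletCharacter.LFunction (1 : DirichletCharacter ℂ 1) :=
    DirichletCharacter.LFunction_modOne_eq.symm
  rw [hz, re_logDeriv _ k 0 hk, re_logDeriv _ k 0 hk, re_logDeriv _ k 0 hk, re_logDeriv _ k 0 hk]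
  have s1 := (summable_cf (1 : DirichletCharacter ℂ 1) k 0 hk)
  have s2 := (summable_cf χ₁ k 0 hk)
  have s3 := (summable_cf χ₂ k 0 hk)
  have s4 := (summable_cf χ₃ k 0 hk)
  have hsum : ∑' n : ℕ, wt 0 k n * cf (1 : DirichletCharacter ℂ 1) 0 n
      + ∑' n : ℕ, wt 0 k n * cf χ₁ 0 n + ∑' n : ℕ, wt 0 k n * cf χ₂ 0 n
      + ∑' n : ℕ, wt 0 k n * cf χ₃ 0 n
      = ∑' n : ℕ, wt 0 k n * (cf (1 : DirichletCharacter ℂ 1) 0 n + cf χ₁ 0 n + cf χ₂ 0 n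
          + cf χ₃ 0 n) := by
    rw [← s1.tsum_add s2, ← (s1.add s2).tsum_add s3, ← ((s1.add s2).add s3).tsum_add s4]
    refine tsum_congr fun n => ?_
    ring
  have hcf : ∀ {q : ℕ} (χ : DirichletCharacter ℂ q) (n : ℕ), cf χ 0 n = (χ n).re := by
    intro q χ n
    rw [cf]; simp
  have hnn : 0 ≤ ∑' n : ℕ, wt 0 k n * (cf (1 : DirichletCharacter ℂ 1) 0 n + cf χ₁ 0 n
      + cf χ₂ 0 n + cf χ₃ 0 n) := by
    refine tsum_nonneg fun n => ?_
    refine mul_nonneg (wt_nonneg _ _ _) ?_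
    rw [cf_one_zero, hcf, hcf, hcf, h3 n]
    obtain ⟨r₁, hr₁, e₁⟩ := h1 n
    obtain ⟨r₂, hr₂, e₂⟩ := h2 n
    rw [e₁, e₂, ← Complex.ofReal_mul, Complex.ofReal_re, Complex.ofReal_re, Complex.ofReal_re]
    nlinarith [mul_nonneg (by linarith : (0:ℝ) ≤ 1 + r₁) (by linarith : (0:ℝ) ≤ 1 + r₂)]
  linarith

end Vale.Agent.P026.H17
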