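import Vale.Agent.P026.H392.Local

/-!
# The zeta function near the real axis
-/

open Complex Set Filter Topology Metric

namespace Vale.Agent.P026.H17

/-- `ζ'/ζ` near its pole. -/
theorem zeta_logDeriv_near : ∃ C₀ : ℝ, 1 ≤ C₀ ∧ ∀ k : ℝ, 0 < k → k ≤ 1 → ∀ t : ℝ, |t| ≤ 2 →
    -(logDeriv riemannZeta ((((1 + k : ℝ)) : ℂ) + t * I)).re ≤ k / (k ^ 2 + t ^ 2) + C₀ := by
  have hK : IsCompact (Icc (1:ℝ) 2 ×ℂ Icc (-2:ℝ) 2) := isCompact_Icc.reProdIm isCompact_Icc
  have hne : ∀ s ∈ (Icc (1:ℝ) 2 ×ℂ Icc (-2:ℝ) 2), riemannZeta₁ s ≠ 0 := by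
    intro s hs
    rw [mem_reProdIm] at hs
    by_cases h1 : s = 1
    · rw [h1, riemannZeta₁_one]; exact one_ne_zero
    · intro h0
      have h2 := riemannZeta_eq_inv_sub_mul h1
      rw [h0, mul_zero] at h2
      exact riemannZeta_ne_zero_of_one_le_re hs.1.1 h2
  have hcont : ContinuousOn (fun s => logDeriv riemannZeta₁ s) (Icc (1:ℝ) 2 ×ℂ Icc (-2:ℝ) 2) := by
    have h1 : Continuous (deriv riemannZeta₁) :=
      (differentiable_riemannZeta₁.contDiff (n := 1)).continuous_deriv le_rfl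
    have h2 : (fun s => logDeriv riemannZeta₁ s) = fun s => deriv riemannZeta₁ s / riemannZeta₁ s := by
      funext s; rw [logDeriv_apply]
    rw [h2]
    exact h1.continuousOn.div differentiable_riemannZeta₁.continuous.continuousOn hne
  obtain ⟨B, hB⟩ := hK.exists_bound_of_continuousOn hcont
  refine ⟨max 1 B, le_max_left _ _, ?_⟩
  intro k hk hk1 t ht
  set s : ℂ := (((1 + k : ℝ)) : ℂ) + t * I with hs
  have hsre : s.re = 1 + k := by simp [hs]
  have hsim : s.im = t := by simp [hs]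
  have hs1 : s ≠ 1 := by
    intro h
    rw [h, Complex.one_re] at hsre
    linarith
  have hmem : s ∈ (Icc (1:ℝ) 2 ×ℂ Icc (-2:ℝ) 2) := by
    rw [mem_reProdIm, hsre, hsim]
    exact ⟨⟨by linarith, by linarith⟩, abs_le.1 ht⟩
  have hb := hB s hmem
  have hev : riemannZeta =ᶠ[𝓝 s] fun z => (z - 1)⁻¹ * riemannZeta₁ z := by
    filter_upwards [isOpen_ne.mem_nhds hs1] with z hz
    exact riemannZeta_eq_inv_sub_mul hz
  have hld : logDeriv riemannZeta s = -(s - 1)⁻¹ + logDeriv riemannZeta₁ s := by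
    rw [(logDeriv_congr_nhds hev).self_of_nhds]
    have hd : DifferentiableAt ℂ (fun z : ℂ => (z - 1)⁻¹) s := by
      refine DifferentiableAt.inv (by fun_prop) (sub_ne_zero.2 hs1)
    have h1 := logDeriv_mul (f := fun z : ℂ => (z - 1)⁻¹) (g := riemannZeta₁) s
      (inv_ne_zero (sub_ne_zero.2 hs1)) (hne s hmem) hd differentiable_riemannZeta₁.differentiableAt
    have h2 : logDeriv (fun z : ℂ => (z - 1)⁻¹) s = -(s - 1)⁻¹ := by
      have h3 : HasDerivAt (fun z : ℂ => (z - 1)⁻¹) (-1 / (s - 1)^2) s :=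
        ((hasDerivAt_id s).sub_const 1).inv (sub_ne_zero.2 hs1)
      rw [logDeriv_apply, h3.deriv]
      have := sub_ne_zero.2 hs1
      field_simp
    rw [h2] at h1
    exact h1
  have hinv : ((s - 1)⁻¹).re = k / (k ^ 2 + t ^ 2) := by
    rw [Complex.inv_re, Complex.normSq_apply, Complex.sub_re, Complex.sub_im, hsre, hsim,
      Complex.one_re, Complex.one_im]
    congr 1 <;> ring
  rw [hld, Complex.add_re, Complex.neg_re, hinv]
  have h4 := neg_abs_le (logDeriv riemannZeta₁ s).re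
  have h5 := Complex.abs_re_le_norm (logDeriv riemannZeta₁ s)
  have h6 := le_max_right 1 B
  have h7 : ‖logDeriv riemannZeta₁ s‖ ≤ B := hb
  linarith

/-- No zeros of `ζ` close to `1` at low height. -/
theorem zeta_gap : ∃ g : ℝ, 0 < g ∧ ∀ ρ : ℂ, riemannZeta ρ = 0 → |ρ.im| ≤ 2 → ρ.re ≤ 1 - g := by
  classical
  have hK : IsCompact (Icc (1/2:ℝ) 1 ×ℂ Icc (-2:ℝ) 2) := isCompact_Icc.reProdIm isCompact_Icc
  have hfin := hK.inter_riemannZetaZeros_finite
  have h1 : ∃ g : ℝ, 0 < g ∧ ∀ ρ ∈ hfin.toFinset, ρ.re ≤ 1 - g := by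
    have hlt : ∀ ρ ∈ hfin.toFinset, 0 < 1 - ρ.re := by
      intro ρ hρ
      rw [Set.Finite.mem_toFinset] at hρ
      by_contra hcon
      exact riemannZeta_ne_zero_of_one_le_re (by linarith : 1 ≤ ρ.re) hρ.2
    rcases hfin.toFinset.eq_empty_or_nonempty with he | hne
    · exact ⟨1, one_pos, by rw [he]; simp⟩
    · obtain ⟨a, ha, hmax⟩ := Finset.exists_max_image hfin.toFinset (fun ρ : ℂ => ρ.re) hne
      exact ⟨1 - a.re, hlt a ha, fun ρ hρ => by have := hmax ρ hρ; linarith⟩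
  obtain ⟨g, hg, hb⟩ := h1
  refine ⟨min g (1/2), lt_min hg (by norm_num), ?_⟩
  intro ρ h0 him
  by_cases hre : 1/2 ≤ ρ.re
  · have hle : ρ.re ≤ 1 := by
      by_contra hcon
      exact riemannZeta_ne_zero_of_one_le_re (not_le.1 hcon).le h0
    have hmem : ρ ∈ hfin.toFinset := by
      rw [Set.Finite.mem_toFinset]
      refine ⟨?_, h0⟩
      rw [mem_reProdIm]
      exact ⟨⟨hre, hle⟩, abs_le.1 him⟩
    have := hb ρ hmem
    have := min_le_left g (1/2)
    linarith
  · have := min_le_right g (1/2)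
    push Not at hre
    linarith

end Vale.Agent.P026.H17
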