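import Vale.Agent.P026.H17.LandauB
import Vale.Agent.P026.H17.Pos
import Vale.Agent.P026.H17.ZetaNear
import Vale.Agent.P026.H17.Conj
import Vale.Agent.P026.H267.Corollaries
import Vale.Agent.P026.H517.VK

/-!
# The uniform Vinogradov–Korobov zero-free region and the Landau–Page theorem
-/

open Complex Set Filter Topology Metric

namespace Vale.Agent.P026.H17

open Vale.Agent.P026.H392 (LL)
open Vale.Agent.P026.H267 (CharIdx Lf zmul)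

/-- The conclusion of `landau_L` at fixed parameters. -/
def LandauAt (C₁ Q T Λ a : ℝ) : Prop :=
  ∀ (q : ℕ) [NeZero q] (χ : DirichletCharacter ℂ q), (q:ℝ) ≤ Q^2 →
    ∀ t : ℝ, |t| ≤ 2 * T → (χ ≠ 1 ∨ (q = 1 ∧ 1 ≤ |t|)) →
    ∀ F : Finset ℂ, (∀ ρ ∈ F, ρ ∈ closedBall ((((1 + a / Λ : ℝ)) : ℂ) + t * I) (2 / Λ)) →
      0.99 * ∑ ρ ∈ F, (analyticOrderNatAt (DirichletCharacter.LFunction χ) ρ : ℝ) *
          ((1 + a / Λ - ρ.re) / ‖ρ - ((((1 + a / Λ : ℝ)) : ℂ) + t * I)‖ ^ 2)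
        ≤ (logDeriv (DirichletCharacter.LFunction χ) ((((1 + a / Λ : ℝ)) : ℂ) + t * I)).re
          + C₁ * Λ

/-- The conclusion of `zeta_logDeriv_near`. -/
def ZetaNear (C₀ : ℝ) : Prop :=
  ∀ k : ℝ, 0 < k → k ≤ 1 → ∀ t : ℝ, |t| ≤ 2 →
    -(logDeriv riemannZeta ((((1 + k : ℝ)) : ℂ) + t * I)).re ≤ k / (k ^ 2 + t ^ 2) + C₀

lemma LandauAt.nonneg {C₁ Q T Λ a : ℝ} (H : LandauAt C₁ Q T Λ a) {q : ℕ} [NeZero q]
    (χ : DirichletCharacter ℂ q) (hq : (q:ℝ) ≤ Q^2) {t : ℝ} (ht : |t| ≤ 2 * T)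
    (hχ : χ ≠ 1 ∨ (q = 1 ∧ 1 ≤ |t|)) :
    -(logDeriv (DirichletCharacter.LFunction χ) ((((1 + a / Λ : ℝ)) : ℂ) + t * I)).re
      ≤ C₁ * Λ := by
  have h := H q χ hq t ht hχ ∅ (by simp)
  simp only [Finset.sum_empty, mul_zero] at h
  linarith

/-- One zero at height `t`. -/
lemma LandauAt.one_zero {C₁ Q T Λ a : ℝ} (H : LandauAt C₁ Q T Λ a) (hΛ : 1 ≤ Λ) (ha : 0 < a)
    (ha1 : a ≤ 1) {q : ℕ} [NeZero q]
    (χ : DirichletCharacter ℂ q) (hq : (q:ℝ) ≤ Q^2) {ρ : ℂ} (ht : |ρ.im| ≤ 2 * T)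
    (hχ : χ ≠ 1 ∨ (q = 1 ∧ 1 ≤ |ρ.im|))
    (hord : 1 ≤ analyticOrderNatAt (DirichletCharacter.LFunction χ) ρ) (hρ1 : ρ.re < 1)
    (hρ : 1 - a / (10 * Λ) ≤ ρ.re) :
    (9 / 10) * (Λ / a) ≤
      (logDeriv (DirichletCharacter.LFunction χ) ((((1 + a / Λ : ℝ)) : ℂ) + ρ.im * I)).re
      + C₁ * Λ := by
  have hΛ0 : 0 < Λ := by linarith
  have hk0 : 0 < a / Λ := by positivity
  have hdiff : ρ - ((((1 + a / Λ : ℝ)) : ℂ) + ρ.im * I) = ((ρ.re - (1 + a / Λ) : ℝ) : ℂ) := by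
    apply Complex.ext <;> simp
  have hnorm : ‖ρ - ((((1 + a / Λ : ℝ)) : ℂ) + ρ.im * I)‖ = 1 + a / Λ - ρ.re := by
    rw [hdiff, Complex.norm_real, Real.norm_eq_abs, abs_of_nonpos (by linarith)]
    ring
  have hδ : 1 + a / Λ - ρ.re ≤ 11 / 10 * (a / Λ) := by
    have : a / (10 * Λ) = 1 / 10 * (a / Λ) := by field_simp
    linarith
  have hpos : 0 < 1 + a / Λ - ρ.re := by linarith
  have h := H q χ hq ρ.im ht hχ {ρ} (by
    intro z hz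
    rw [Finset.mem_singleton] at hz
    rw [hz, mem_closedBall, dist_eq_norm, hnorm]
    have h1 : a / Λ ≤ 1 / Λ := div_le_div_of_nonneg_right ha1 hΛ0.le
    have h2 : (2:ℝ) / Λ = 2 * (1 / Λ) := by ring
    rw [h2]
    linarith)
  rw [Finset.sum_singleton, hnorm] at h
  have h1 : (1 + a / Λ - ρ.re) / (1 + a / Λ - ρ.re) ^ 2 = 1 / (1 + a / Λ - ρ.re) := by
    field_simp
  rw [h1] at h
  have h2 : (10 / 11) * (Λ / a) ≤ 1 / (1 + a / Λ - ρ.re) := by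
    rw [le_div_iff₀ hpos]
    calc 10 / 11 * (Λ / a) * (1 + a / Λ - ρ.re) ≤ 10 / 11 * (Λ / a) * (11 / 10 * (a / Λ)) :=
          mul_le_mul_of_nonneg_left hδ (by positivity)
      _ = 1 := by field_simp
  have h3 : (1:ℝ) ≤ (analyticOrderNatAt (DirichletCharacter.LFunction χ) ρ : ℝ) := by
    exact_mod_cast hord
  have h4 : (10 / 11) * (Λ / a) ≤ (analyticOrderNatAt (DirichletCharacter.LFunction χ) ρ : ℝ)
      * (1 / (1 + a / Λ - ρ.re)) := by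
    calc (10 / 11) * (Λ / a) ≤ 1 / (1 + a / Λ - ρ.re) := h2
      _ = 1 * (1 / (1 + a / Λ - ρ.re)) := by ring
      _ ≤ _ := mul_le_mul_of_nonneg_right h3 (by positivity)
  have h5 : 0 ≤ Λ / a := by positivity
  nlinarith

/-- Numerical contradiction, `3-4-1`. -/
lemma contra {C₀ C₁ Λ a x : ℝ} (hC₀ : 1 ≤ C₀) (hC₁ : 1 ≤ C₁) (hΛ : 1 ≤ Λ) (ha : 0 < a)
    (haC : a * (C₀ + C₁) ≤ 1 / 100) (hx : 1 / 20 * (Λ / a) ≤ x)
    (h : x ≤ 4 * C₀ + 5 * C₁ * Λ) : False := by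
  have h1 : (4 * C₀ + 5 * C₁ * Λ) ≤ 5 * (C₀ + C₁) * Λ := by nlinarith
  have h2 : 5 * (C₀ + C₁) * Λ ≤ 1 / 20 * (Λ / a) := by
    rw [show 1 / 20 * (Λ / a) = (1 / 20 * Λ) / a by ring, le_div_iff₀ ha]
    nlinarith
  have h3 : 5 * (C₀ + C₁) * Λ = 1 / 20 * (Λ / a) → False := by
    intro h4
    have h5 : 5 * (C₀ + C₁) * Λ < 5 * (C₀ + C₁) * Λ + 1 := by linarith
    -- strict inequality comes from `4 C₀ < 5 C₀ Λ`
    have h6 : (4 * C₀ + 5 * C₁ * Λ) < 5 * (C₀ + C₁) * Λ := by nlinarith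
    linarith
  rcases h2.lt_or_eq with h4 | h4
  · linarith
  · exact h3 h4

/-- The `3-4-1` step: no zero if the third function has no pole nearby. -/
lemma step_a {C₀ C₁ Q T Λ a : ℝ} (hC₀ : 1 ≤ C₀) (hC₁ : 1 ≤ C₁) (hQ : 1 ≤ Q) (hΛ : 1 ≤ Λ)
    (ha : 0 < a) (ha1 : a ≤ 1)
    (haC : a * (C₀ + C₁) ≤ 1 / 100) (H : LandauAt C₁ Q T Λ a) (HZ : ZetaNear C₀)
    {q q₂ : ℕ} [NeZero q] [NeZero q₂] (χ : DirichletCharacter ℂ q) (χ₂ : DirichletCharacter ℂ q₂)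
    (h2 : ∀ n : ℕ, χ n ≠ 0 → χ₂ n = χ n ^ 2) (hq : (q:ℝ) ≤ Q) {ρ : ℂ} (ht : |ρ.im| ≤ T)
    (hχ : χ ≠ 1 ∨ (q = 1 ∧ 1 ≤ |ρ.im|))
    (hB : -(logDeriv (DirichletCharacter.LFunction χ₂)
      ((((1 + a / Λ : ℝ)) : ℂ) + (2 * ρ.im : ℝ) * I)).re ≤ 1 / 5 * (Λ / a) + C₀ + C₁ * Λ)
    (hord : 1 ≤ analyticOrderNatAt (DirichletCharacter.LFunction χ) ρ) (hρ1 : ρ.re < 1)
    (hρ : 1 - a / (10 * Λ) ≤ ρ.re) : False := by
  have hΛ0 : 0 < Λ := by linarith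
  have hk0 : 0 < a / Λ := by positivity
  have hk1 : a / Λ ≤ 1 := by
    rw [div_le_one hΛ0]; linarith
  have hq2 : (q:ℝ) ≤ Q^2 := hq.trans (by nlinarith)
  have habs : 0 ≤ |ρ.im| := abs_nonneg _
  have e1 := H.one_zero hΛ ha ha1 χ hq2 (by linarith) hχ hord hρ1 hρ
  have e2 := HZ (a / Λ) hk0 hk1 0 (by simp)
  have e3 := pos_341 χ χ₂ h2 (a / Λ) ρ.im hk0
  have e4 : a / Λ / ((a / Λ) ^ 2 + 0 ^ 2) = Λ / a := by
    field_simp
    ring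
  rw [e4] at e2
  refine contra (C₀ := C₀) (C₁ := C₁) (Λ := Λ) (a := a) (x := 2 / 5 * (Λ / a)) hC₀ hC₁ hΛ ha haC
    ?_ ?_
  · have : 0 ≤ Λ / a := by positivity
    linarith
  · linarith

/-- Zeta, away from the real axis. -/
lemma step_zeta {C₀ C₁ Q T Λ a : ℝ} (hC₀ : 1 ≤ C₀) (hC₁ : 1 ≤ C₁) (hQ : 1 ≤ Q) (hΛ : 1 ≤ Λ)
    (ha : 0 < a) (ha1 : a ≤ 1)
    (haC : a * (C₀ + C₁) ≤ 1 / 100) (H : LandauAt C₁ Q T Λ a) (HZ : ZetaNear C₀)
    {ρ : ℂ} (ht : |ρ.im| ≤ T) (ht1 : 1 ≤ |ρ.im|)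
    (hord : 1 ≤ analyticOrderNatAt (DirichletCharacter.LFunction (1 : DirichletCharacter ℂ 1)) ρ)
    (hρ1 : ρ.re < 1) (hρ : 1 - a / (10 * Λ) ≤ ρ.re) : False := by
  have habs2 : |2 * ρ.im| = 2 * |ρ.im| := by rw [abs_mul, abs_two]
  refine step_a hC₀ hC₁ hQ hΛ ha ha1 haC H HZ (1 : DirichletCharacter ℂ 1)
    (1 : DirichletCharacter ℂ 1) ?_ (by push_cast; exact hQ) ht (Or.inr ⟨rfl, ht1⟩) ?_ hord hρ1 hρ
  · intro n _
    have h1 : (1 : DirichletCharacter ℂ 1) n = 1 := by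
      rw [Subsingleton.elim ((n : ℕ) : ZMod 1) 1, map_one]
    rw [h1, one_pow]
  · have h := H.nonneg (1 : DirichletCharacter ℂ 1) (by push_cast; nlinarith)
      (t := 2 * ρ.im) (by rw [habs2]; linarith) (Or.inr ⟨rfl, by rw [habs2]; linarith⟩)
    have h2 : 0 ≤ Λ / a := by positivity
    linarith

/-- Nonreal characters. -/
lemma step_complex {C₀ C₁ Q T Λ a : ℝ} (hC₀ : 1 ≤ C₀) (hC₁ : 1 ≤ C₁) (hQ : 1 ≤ Q) (hΛ : 1 ≤ Λ)
    (ha : 0 < a) (ha1 : a ≤ 1)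
    (haC : a * (C₀ + C₁) ≤ 1 / 100) (H : LandauAt C₁ Q T Λ a) (HZ : ZetaNear C₀)
    {q : ℕ} [NeZero q] (χ : DirichletCharacter ℂ q) (h2 : χ ^ 2 ≠ 1)
    (hq : (q:ℝ) ≤ Q) {ρ : ℂ} (ht : |ρ.im| ≤ T)
    (hord : 1 ≤ analyticOrderNatAt (DirichletCharacter.LFunction χ) ρ)
    (hρ1 : ρ.re < 1) (hρ : 1 - a / (10 * Λ) ≤ ρ.re) : False := by
  have hχ1 : χ ≠ 1 := fun h => h2 (by rw [h, one_pow])
  have habs2 : |2 * ρ.im| = 2 * |ρ.im| := by rw [abs_mul, abs_two]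
  refine step_a hC₀ hC₁ hQ hΛ ha ha1 haC H HZ χ (χ ^ 2) ?_ hq ht (Or.inl hχ1) ?_ hord hρ1 hρ
  · intro n _
    rw [MulChar.pow_apply' _ (by norm_num)]
  · have h := H.nonneg (χ ^ 2) (hq.trans (by nlinarith))
      (t := 2 * ρ.im) (by rw [habs2]; linarith) (Or.inl h2)
    have h2 : 0 ≤ Λ / a := by positivity
    linarith

/-- Real characters, away from the real axis. -/
lemma step_real_far {C₀ C₁ Q T Λ a : ℝ} (hC₀ : 1 ≤ C₀) (hC₁ : 1 ≤ C₁) (hQ : 1 ≤ Q) (hΛ : 1 ≤ Λ)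
    (ha : 0 < a) (ha1 : a ≤ 1)
    (haC : a * (C₀ + C₁) ≤ 1 / 100) (H : LandauAt C₁ Q T Λ a) (HZ : ZetaNear C₀)
    {q : ℕ} [NeZero q] (χ : DirichletCharacter ℂ q) (h1 : χ ≠ 1) (h2 : χ ^ 2 = 1)
    (hq : (q:ℝ) ≤ Q) {ρ : ℂ} (ht : |ρ.im| ≤ T) (hfar : a / Λ ≤ |ρ.im|)
    (hord : 1 ≤ analyticOrderNatAt (DirichletCharacter.LFunction χ) ρ)
    (hρ1 : ρ.re < 1) (hρ : 1 - a / (10 * Λ) ≤ ρ.re) : False := by
  have hΛ0 : 0 < Λ := by linarith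
  have hk0 : 0 < a / Λ := by positivity
  have hk1 : a / Λ ≤ 1 := by
    rw [div_le_one hΛ0]; linarith
  have habs2 : |2 * ρ.im| = 2 * |ρ.im| := by rw [abs_mul, abs_two]
  refine step_a hC₀ hC₁ hQ hΛ ha ha1 haC H HZ χ (1 : DirichletCharacter ℂ 1) ?_ hq ht
    (Or.inl h1) ?_ hord hρ1 hρ
  · intro n hn
    have e1 : (1 : DirichletCharacter ℂ 1) n = 1 := by
      rw [Subsingleton.elim ((n : ℕ) : ZMod 1) 1, map_one]
    have hu : IsUnit (n : ZMod q) := by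
      by_contra hu
      exact hn (χ.map_nonunit hu)
    rw [e1, ← MulChar.pow_apply' _ (by norm_num), h2, MulChar.one_apply hu]
  · rcases le_or_gt 1 |2 * ρ.im| with h | h
    · have h := H.nonneg (1 : DirichletCharacter ℂ 1) (by push_cast; nlinarith)
        (t := 2 * ρ.im) (by rw [habs2]; linarith) (Or.inr ⟨rfl, h⟩)
      have h2 : 0 ≤ Λ / a := by positivity
      linarith
    · rw [DirichletCharacter.LFunction_modOne_eq]
      have h3 := HZ (a / Λ) hk0 hk1 (2 * ρ.im) (by linarith)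
      have h4 : a / Λ / ((a / Λ) ^ 2 + (2 * ρ.im) ^ 2) ≤ 1 / 5 * (Λ / a) := by
        have h5 : (a / Λ) ^ 2 ≤ ρ.im ^ 2 := by
          rw [← sq_abs ρ.im]
          exact pow_le_pow_left₀ hk0.le hfar 2
        rw [div_le_iff₀ (by positivity)]
        have h6 : 1 / 5 * (Λ / a) * (5 * (a / Λ) ^ 2) = a / Λ := by
          field_simp
        calc a / Λ = 1 / 5 * (Λ / a) * (5 * (a / Λ) ^ 2) := h6.symm
          _ ≤ 1 / 5 * (Λ / a) * ((a / Λ) ^ 2 + (2 * ρ.im) ^ 2) := by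
            refine mul_le_mul_of_nonneg_left ?_ (by positivity)
            nlinarith
      have h7 : 0 ≤ C₁ * Λ := by positivity
      linarith

/-- The term of a zero near the real axis, seen from `1 + b/Λ`. -/
lemma near_term {b Λ : ℝ} (hb : 0 < b) (hΛ : 0 < Λ) {ρ : ℂ} (hρ1 : ρ.re < 1)
    (hρ : 1 - b / (8 * Λ) ≤ ρ.re) (him : |ρ.im| ≤ b / (8 * Λ)) :
    (4 / 5) * (Λ / b) ≤
      0.99 * ((1 + b / Λ - ρ.re) / ‖ρ - ((((1 + b / Λ : ℝ)) : ℂ) + (0 : ℝ) * I)‖ ^ 2) := by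
  set k := b / Λ with hk
  have hk0 : 0 < k := by positivity
  have h8 : b / (8 * Λ) = k / 8 := by rw [hk]; field_simp
  rw [h8] at hρ him
  have hΛb : Λ / b = 1 / k := by rw [hk]; field_simp
  rw [hΛb]
  set x := 1 + k - ρ.re with hx
  have hx1 : k < x := by rw [hx]; linarith
  have hx2 : x ≤ 9 / 8 * k := by rw [hx]; linarith
  have hnorm : ‖ρ - ((((1 + k : ℝ)) : ℂ) + (0 : ℝ) * I)‖ ^ 2 = x ^ 2 + ρ.im ^ 2 := by
    rw [Complex.sq_norm, Complex.normSq_apply]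
    simp [hx]
    ring
  rw [hnorm]
  have hy : ρ.im ^ 2 ≤ (k / 8) ^ 2 := by
    rw [← sq_abs ρ.im]
    exact pow_le_pow_left₀ (abs_nonneg _) him 2
  have hden : 0 < x ^ 2 + ρ.im ^ 2 := by
    have : 0 < x := by linarith
    positivity
  rw [show 0.99 * (x / (x ^ 2 + ρ.im ^ 2)) = 0.99 * x / (x ^ 2 + ρ.im ^ 2) by ring,
    le_div_iff₀ hden]
  have h1 : 4 / 5 * (1 / k) * (x ^ 2 + ρ.im ^ 2) ≤ 4 / 5 * (1 / k) * (x ^ 2 + (k / 8) ^ 2) := by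
    refine mul_le_mul_of_nonneg_left (by linarith) (by positivity)
  have h2 : 4 / 5 * (1 / k) * (x ^ 2 + (k / 8) ^ 2) ≤ 0.99 * x := by
    rw [show 4 / 5 * (1 / k) * (x ^ 2 + (k / 8) ^ 2) = (4 / 5 * (x ^ 2 + (k / 8) ^ 2)) / k by ring,
      div_le_iff₀ hk0]
    nlinarith
  linarith

/-- At most one zero (with multiplicity) of `L(s, χ)`, `χ` real, near the real axis. -/
lemma step_real_near {C₀ C₁ Q T Λ b : ℝ} (hC₀ : 1 ≤ C₀) (hC₁ : 1 ≤ C₁) (hQ : 1 ≤ Q)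
    (hT : 0 ≤ T) (hΛ : 1 ≤ Λ) (hb : 0 < b) (hb1 : b ≤ 1) (hbC : b * (C₀ + C₁) ≤ 2 / 25)
    (H : LandauAt C₁ Q T Λ b) (HZ : ZetaNear C₀)
    {q : ℕ} [NeZero q] (χ : DirichletCharacter ℂ q) (h1 : χ ≠ 1)
    (hq : (q:ℝ) ≤ Q) (F : Finset ℂ) (hF1 : ∀ ρ ∈ F, ρ.re < 1)
    (hF2 : ∀ ρ ∈ F, 1 - b / (8 * Λ) ≤ ρ.re) (hF3 : ∀ ρ ∈ F, |ρ.im| ≤ b / (8 * Λ))
    (hcount : 2 ≤ ∑ ρ ∈ F, analyticOrderNatAt (DirichletCharacter.LFunction χ) ρ) : False := by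
  have hΛ0 : 0 < Λ := by linarith
  have hk0 : 0 < b / Λ := by positivity
  have hk1 : b / Λ ≤ 1 := by
    rw [div_le_one hΛ0]; linarith
  have hball : ∀ ρ ∈ F, ρ ∈ closedBall ((((1 + b / Λ : ℝ)) : ℂ) + (0 : ℝ) * I) (2 / Λ) := by
    intro ρ hρ
    rw [mem_closedBall, dist_eq_norm]
    refine (Complex.norm_le_abs_re_add_abs_im _).trans ?_
    have e1 : (ρ - ((((1 + b / Λ : ℝ)) : ℂ) + (0 : ℝ) * I)).re = ρ.re - (1 + b / Λ) := by simp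
    have e2 : (ρ - ((((1 + b / Λ : ℝ)) : ℂ) + (0 : ℝ) * I)).im = ρ.im := by simp
    rw [e1, e2, abs_of_nonpos (by have := hF1 ρ hρ; linarith)]
    have h2 := hF2 ρ hρ
    have h3 := hF3 ρ hρ
    have h4 : b / (8 * Λ) = (b / Λ) / 8 := by field_simp
    have h5 : b / Λ ≤ 1 / Λ := div_le_div_of_nonneg_right hb1 hΛ0.le
    have h6 : (2:ℝ) / Λ = 2 * (1 / Λ) := by ring
    rw [h4] at h2 h3
    rw [h6]
    linarith
  have e1 := H q χ (hq.trans (by nlinarith)) 0 (by simp; linarith) (Or.inl h1) F hball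
  have e2 := HZ (b / Λ) hk0 hk1 0 (by simp)
  have e3 := pos_real χ (b / Λ) hk0
  have e4 : b / Λ / ((b / Λ) ^ 2 + 0 ^ 2) = Λ / b := by
    field_simp
    ring
  rw [e4] at e2
  have e5 : (8 / 5) * (Λ / b) ≤ 0.99 * ∑ ρ ∈ F,
      (analyticOrderNatAt (DirichletCharacter.LFunction χ) ρ : ℝ) *
          ((1 + b / Λ - ρ.re) / ‖ρ - ((((1 + b / Λ : ℝ)) : ℂ) + (0 : ℝ) * I)‖ ^ 2) := by
    have hc : (2:ℝ) ≤ ∑ ρ ∈ F, (analyticOrderNatAt (DirichletCharacter.LFunction χ) ρ : ℝ) := by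
      exact_mod_cast hcount
    have hΛb : 0 ≤ Λ / b := by positivity
    calc (8 / 5) * (Λ / b) = 2 * ((4 / 5) * (Λ / b)) := by ring
      _ ≤ (∑ ρ ∈ F, (analyticOrderNatAt (DirichletCharacter.LFunction χ) ρ : ℝ))
            * ((4 / 5) * (Λ / b)) := mul_le_mul_of_nonneg_right hc (by positivity)
      _ ≤ _ := by
        rw [Finset.sum_mul, Finset.mul_sum]
        refine Finset.sum_le_sum fun ρ hρ => ?_
        have h := near_term hb hΛ0 (hF1 ρ hρ) (hF2 ρ hρ) (hF3 ρ hρ)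
        calc _ ≤ (analyticOrderNatAt (DirichletCharacter.LFunction χ) ρ : ℝ) *
              (0.99 * ((1 + b / Λ - ρ.re) /
                ‖ρ - ((((1 + b / Λ : ℝ)) : ℂ) + (0 : ℝ) * I)‖ ^ 2)) :=
              mul_le_mul_of_nonneg_left h (Nat.cast_nonneg _)
          _ = _ := by ring
  have e6 : 3 / 5 * (Λ / b) ≤ C₀ + C₁ * Λ := by linarith
  have e7 : C₀ + C₁ * Λ ≤ (C₀ + C₁) * Λ := by nlinarith
  have e8 : (C₀ + C₁) * Λ < 3 / 5 * (Λ / b) := by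
    rw [show 3 / 5 * (Λ / b) = (3 / 5 * Λ) / b by ring, lt_div_iff₀ hb]
    nlinarith
  linarith

/-- Page: two real characters do not both have a real zero near `1`. -/
lemma step_page {C₀ C₁ Q T Λ b : ℝ} (hC₀ : 1 ≤ C₀) (hC₁ : 1 ≤ C₁) (hQ : 1 ≤ Q)
    (hT : 0 ≤ T) (hΛ : 1 ≤ Λ) (hb : 0 < b) (hb1 : b ≤ 1) (hbC : b * (C₀ + C₁) ≤ 2 / 25)
    (H : LandauAt C₁ Q T Λ b) (HZ : ZetaNear C₀)
    {q₁ q₂ : ℕ} [NeZero q₁] [NeZero q₂] (χ₁ : DirichletCharacter ℂ q₁)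
    (χ₂ : DirichletCharacter ℂ q₂) (p1 : χ₁.IsPrimitive) (p2 : χ₂.IsPrimitive)
    (n1 : χ₁ ≠ 1) (n2 : χ₂ ≠ 1) (s1 : χ₁ ^ 2 = 1) (s2 : χ₂ ^ 2 = 1)
    (hne : (⟨q₁, χ₁⟩ : Σ q : ℕ, DirichletCharacter ℂ q) ≠ ⟨q₂, χ₂⟩)
    (hq1 : (q₁:ℝ) ≤ Q) (hq2 : (q₂:ℝ) ≤ Q) {ρ₁ ρ₂ : ℂ}
    (o1 : 1 ≤ analyticOrderNatAt (DirichletCharacter.LFunction χ₁) ρ₁)
    (o2 : 1 ≤ analyticOrderNatAt (DirichletCharacter.LFunction χ₂) ρ₂)
    (r1 : ρ₁.re < 1) (r2 : ρ₂.re < 1) (d1 : 1 - b / (8 * Λ) ≤ ρ₁.re)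
    (d2 : 1 - b / (8 * Λ) ≤ ρ₂.re) (i1 : |ρ₁.im| ≤ b / (8 * Λ)) (i2 : |ρ₂.im| ≤ b / (8 * Λ)) :
    False := by
  have hΛ0 : 0 < Λ := by linarith
  have hk0 : 0 < b / Λ := by positivity
  have hk1 : b / Λ ≤ 1 := by
    rw [div_le_one hΛ0]; linarith
  have hball : ∀ ρ : ℂ, ρ.re < 1 → 1 - b / (8 * Λ) ≤ ρ.re → |ρ.im| ≤ b / (8 * Λ) →
      ρ ∈ closedBall ((((1 + b / Λ : ℝ)) : ℂ) + (0 : ℝ) * I) (2 / Λ) := by
    intro ρ hρ h2 h3
    rw [mem_closedBall, dist_eq_norm]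
    refine (Complex.norm_le_abs_re_add_abs_im _).trans ?_
    have e1 : (ρ - ((((1 + b / Λ : ℝ)) : ℂ) + (0 : ℝ) * I)).re = ρ.re - (1 + b / Λ) := by simp
    have e2 : (ρ - ((((1 + b / Λ : ℝ)) : ℂ) + (0 : ℝ) * I)).im = ρ.im := by simp
    rw [e1, e2, abs_of_nonpos (by linarith)]
    have h4 : b / (8 * Λ) = (b / Λ) / 8 := by field_simp
    have h5 : b / Λ ≤ 1 / Λ := div_le_div_of_nonneg_right hb1 hΛ0.le
    have h6 : (2:ℝ) / Λ = 2 * (1 / Λ) := by ring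
    rw [h4] at h2 h3
    rw [h6]
    linarith
  have single : ∀ (q : ℕ) [NeZero q] (χ : DirichletCharacter ℂ q), χ ≠ 1 → (q:ℝ) ≤ Q →
      ∀ ρ : ℂ, 1 ≤ analyticOrderNatAt (DirichletCharacter.LFunction χ) ρ → ρ.re < 1 →
      1 - b / (8 * Λ) ≤ ρ.re → |ρ.im| ≤ b / (8 * Λ) →
      (4 / 5) * (Λ / b) ≤ (logDeriv (DirichletCharacter.LFunction χ)
        ((((1 + b / Λ : ℝ)) : ℂ) + (0 : ℝ) * I)).re + C₁ * Λ := by
    intro q _ χ hχ hq ρ ho hr hd hi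
    have h := H q χ (hq.trans (by nlinarith)) 0 (by simp; linarith) (Or.inl hχ) {ρ} (by
      intro z hz
      rw [Finset.mem_singleton] at hz
      rw [hz]
      exact hball ρ hr hd hi)
    rw [Finset.sum_singleton] at h
    have h2 := near_term hb hΛ0 hr hd hi
    have h3 : (1:ℝ) ≤ (analyticOrderNatAt (DirichletCharacter.LFunction χ) ρ : ℝ) := by
      exact_mod_cast ho
    have hΛb : 0 < Λ / b := by positivity
    set X := ((1 + b / Λ - ρ.re) / ‖ρ - ((((1 + b / Λ : ℝ)) : ℂ) + (0 : ℝ) * I)‖ ^ 2) with hX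
    have hX0 : 0 ≤ X := by
      by_contra hcon
      rw [not_le] at hcon
      linarith
    have h4 : X ≤ (analyticOrderNatAt (DirichletCharacter.LFunction χ) ρ : ℝ) * X := by
      calc X = 1 * X := (one_mul X).symm
        _ ≤ _ := mul_le_mul_of_nonneg_right h3 hX0
    linarith
  have : NeZero (q₁ * q₂) := ⟨Nat.mul_ne_zero (NeZero.ne q₁) (NeZero.ne q₂)⟩
  have e1 := single q₁ χ₁ n1 hq1 ρ₁ o1 r1 d1 i1
  have e1' := single q₂ χ₂ n2 hq2 ρ₂ o2 r2 d2 i2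
  have hprod : ((q₁ * q₂ : ℕ):ℝ) ≤ Q ^ 2 := by
    push_cast
    rw [sq]
    exact mul_le_mul hq1 hq2 (Nat.cast_nonneg _) (by linarith)
  have e2 := H.nonneg (Vale.Agent.P026.H517.prodChar χ₁ χ₂) hprod (t := 0) (by simp; linarith)
    (Or.inl (prodChar_ne_one p1 p2 s2 hne))
  have e3 := HZ (b / Λ) hk0 hk1 0 (by simp)
  have e4 := pos_two_real χ₁ χ₂ (Vale.Agent.P026.H517.prodChar χ₁ χ₂)
    (Vale.Agent.P026.H517.real_of_sq_eq_one χ₁ s1) (Vale.Agent.P026.H517.real_of_sq_eq_one χ₂ s2)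
    (Vale.Agent.P026.H517.prodChar_apply χ₁ χ₂) (b / Λ) hk0
  have e5 : b / Λ / ((b / Λ) ^ 2 + 0 ^ 2) = Λ / b := by
    field_simp
    ring
  rw [e5] at e3
  have e6 : 3 / 5 * (Λ / b) ≤ C₀ + 3 * C₁ * Λ := by linarith
  have e7 : C₀ + 3 * C₁ * Λ ≤ 3 * (C₀ + C₁) * Λ := by nlinarith
  have e8 : 3 * (C₀ + C₁) * Λ < 3 / 5 * (Λ / b) := by
    rw [show 3 / 5 * (Λ / b) = (3 / 5 * Λ) / b by ring, lt_div_iff₀ hb]
    nlinarith
  linarith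

lemma LL_ge (Q T : ℝ) (hQ : 1 ≤ Q) (hT : 3 ≤ T) : LL 1 3 ≤ LL Q T := by
  have h1 := Vale.Agent.P026.H267.LL_one_mono le_rfl hT
  have h2 : LL 1 T ≤ LL Q T := by
    unfold LL
    rw [Real.log_one]
    have := Real.log_nonneg hQ
    linarith
  linarith

/-- **Uniform Vinogradov–Korobov zero-free region, with the Landau–Page theorem.** -/
theorem vk_region : ∃ c : ℝ, 0 < c ∧ ∀ Q T : ℝ, 1 ≤ Q → 3 ≤ T →
    (∀ x : CharIdx × ℂ, ((x.1.1 : ℕ) : ℝ) ≤ Q → x.1.2.IsPrimitive → Lf x.1 x.2 = 0 →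
      |x.2.im| ≤ T → 1 - c / LL Q T ≤ x.2.re →
      x.1.2 ≠ 1 ∧ x.1.2 ^ 2 = 1 ∧ x.2.im = 0 ∧ zmul x = 1) ∧
    (∀ x y : CharIdx × ℂ, ((x.1.1 : ℕ) : ℝ) ≤ Q → x.1.2.IsPrimitive → Lf x.1 x.2 = 0 →
      |x.2.im| ≤ T → 1 - c / LL Q T ≤ x.2.re →
      ((y.1.1 : ℕ) : ℝ) ≤ Q → y.1.2.IsPrimitive → Lf y.1 y.2 = 0 →
      |y.2.im| ≤ T → 1 - c / LL Q T ≤ y.2.re → x = y) := by
  classical
  obtain ⟨C, c', hC, hc', hVK⟩ := Vale.Agent.P026.H517.exists_VKSum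
  obtain ⟨C₁, hC₁, HL⟩ := landau_L hC hc' hVK
  obtain ⟨C₀, hC₀, HZ⟩ := zeta_logDeriv_near
  obtain ⟨g, hg, hgap⟩ := zeta_gap
  set S := C₀ + C₁ with hS
  have hS2 : 2 ≤ S := by linarith
  set a : ℝ := 1 / (100 * S) with ha
  have ha0 : 0 < a := by positivity
  have haS : a * S = 1 / 100 := by rw [ha]; field_simp
  have ha1 : a ≤ 1 / 100 := by nlinarith
  set b : ℝ := 8 * a with hb
  have hb0 : 0 < b := by positivity
  have hbS : b * S = 2 / 25 := by rw [hb, mul_assoc, haS]; norm_num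
  obtain ⟨Ma, hMa, Ha⟩ := HL a ha0 (by linarith)
  obtain ⟨Mb, hMb, Hb⟩ := HL b hb0 (by linarith)
  set M := max Ma Mb with hM
  have hM3 : 3 ≤ M := hMa.trans (le_max_left _ _)
  set l₀ := LL 1 3 with hl₀
  have hl₀0 : 0 < l₀ := Vale.Agent.P026.H267.LL_pos le_rfl le_rfl
  set c : ℝ := min (a / 10 * (l₀ / (l₀ + M))) (g / 2 * l₀) with hc
  have hc0 : 0 < c := lt_min (by positivity) (by positivity)
  refine ⟨c, hc0, ?_⟩
  intro Q T hQ hT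
  set Λ := LL Q T + M with hΛ
  have hLL : l₀ ≤ LL Q T := LL_ge Q T hQ hT
  have hLL0 : 0 < LL Q T := by linarith
  have hΛ1 : 1 ≤ Λ := by linarith
  have hΛ0 : 0 < Λ := by linarith
  have hwidth : c / LL Q T ≤ a / (10 * Λ) := by
    have h1 : c ≤ a / 10 * (l₀ / (l₀ + M)) := min_le_left _ _
    have h2 : l₀ / (l₀ + M) ≤ LL Q T / Λ := by
      rw [div_le_div_iff₀ (by positivity) hΛ0, hΛ]
      nlinarith
    rw [div_le_iff₀ hLL0]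
    calc c ≤ a / 10 * (l₀ / (l₀ + M)) := h1
      _ ≤ a / 10 * (LL Q T / Λ) := mul_le_mul_of_nonneg_left h2 (by positivity)
      _ = _ := by field_simp
  have hgapw : c / LL Q T < g := by
    have h1 : c ≤ g / 2 * l₀ := min_le_right _ _
    rw [div_lt_iff₀ hLL0]
    nlinarith
  have HA : LandauAt C₁ Q T Λ a := fun q _ χ hq t ht hχ F hF =>
    Ha Q T hQ hT M (le_max_left _ _) q χ hq t ht hχ F hF
  have HB : LandauAt C₁ Q T Λ b := fun q _ χ hq t ht hχ F hF =>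
    Hb Q T hQ hT M (le_max_right _ _) q χ hq t ht hχ F hF
  have haS' : a * (C₀ + C₁) ≤ 1 / 100 := haS.le
  have hbS' : b * (C₀ + C₁) ≤ 2 / 25 := hbS.le
  -- first classification
  have key : ∀ x : CharIdx × ℂ, ((x.1.1 : ℕ) : ℝ) ≤ Q → x.1.2.IsPrimitive → Lf x.1 x.2 = 0 →
      |x.2.im| ≤ T → 1 - c / LL Q T ≤ x.2.re →
      x.1.2 ≠ 1 ∧ x.1.2 ^ 2 = 1 ∧ |x.2.im| < a / Λ ∧ x.2.re < 1 ∧ 1 ≤ zmul x ∧
        1 - a / (10 * Λ) ≤ x.2.re := by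
    rintro ⟨⟨q, χ⟩, ρ⟩ hq hp h0 him hre
    simp only at hq hp h0 him hre ⊢
    have hre' : 1 - a / (10 * Λ) ≤ ρ.re := by linarith
    have hNZ : NeZero ((q : ℕ)) := ⟨q.pos.ne'⟩
    -- `ρ ≠ 1`
    have hρne : χ ≠ 1 ∨ ρ ≠ 1 := by
      by_contra hcon
      push Not at hcon
      obtain ⟨hχ1, hρ1⟩ := hcon
      have hq1 : (q : ℕ) = 1 := by
        have h := (DirichletCharacter.isPrimitive_def χ).1 hp
        rw [hχ1, DirichletCharacter.conductor_one] at h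
        exact h.symm
      have hL : ∀ (m : ℕ) [NeZero m] (ψ : DirichletCharacter ℂ m), m = 1 →
          DirichletCharacter.LFunction ψ 1 ≠ 0 := by
        intro m _ ψ hm
        subst hm
        have h := DirichletCharacter.LFunction_modOne_eq (χ := ψ)
        rw [h]
        exact riemannZeta_one_ne_zero
      rw [hρ1] at h0
      exact hL q χ hq1 h0
    have hρ1 : ρ.re < 1 := by
      by_contra hcon
      exact DirichletCharacter.LFunction_ne_zero_of_one_le_re χ hρne (not_lt.1 hcon) h0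
    have hρne1 : ρ ≠ 1 := by
      intro h
      rw [h, Complex.one_re] at hρ1
      exact lt_irrefl _ hρ1
    have hord : 1 ≤ zmul (⟨q, χ⟩, ρ) :=
      Vale.Agent.P026.H267.one_le_zmul (x := (⟨q, χ⟩, ρ)) h0 hρne1
    have hord' : 1 ≤ analyticOrderNatAt (DirichletCharacter.LFunction χ) ρ := hord
    have hχ1 : χ ≠ 1 := by
      intro hχ1
      have hq1 : (q : ℕ) = 1 := by
        have h := (DirichletCharacter.isPrimitive_def χ).1 hp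
        rw [hχ1, DirichletCharacter.conductor_one] at h
        exact h.symm
      have hmain : ∀ (m : ℕ) [NeZero m] (ψ : DirichletCharacter ℂ m), m = 1 →
          DirichletCharacter.LFunction ψ ρ = 0 →
          1 ≤ analyticOrderNatAt (DirichletCharacter.LFunction ψ) ρ → False := by
        intro m _ ψ hm hψ0 hψo
        subst hm
        have hψ1 : ψ = 1 := Subsingleton.elim _ _
        subst hψ1
        rcases le_or_gt |ρ.im| 2 with h | h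
        · rw [DirichletCharacter.LFunction_modOne_eq] at hψ0
          have := hgap ρ hψ0 h
          linarith
        · exact step_zeta hC₀ hC₁ hQ hΛ1 ha0 (by linarith) haS' HA HZ him (by linarith) hψo hρ1
            hre'
      exact hmain q χ hq1 h0 hord'
    have hχ2 : χ ^ 2 = 1 := by
      by_contra hcon
      exact step_complex hC₀ hC₁ hQ hΛ1 ha0 (by linarith) haS' HA HZ χ hcon hq him hord' hρ1 hre'
    refine ⟨hχ1, hχ2, ?_, hρ1, hord, hre'⟩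
    by_contra hcon
    exact step_real_far hC₀ hC₁ hQ hΛ1 ha0 (by linarith) haS' HA HZ χ hχ1 hχ2 hq him
      (not_lt.1 hcon) hord' hρ1 hre'
  have hab : a / Λ = b / (8 * Λ) := by rw [hb]; field_simp
  have hab2 : a / (10 * Λ) ≤ b / (8 * Λ) := by
    rw [← hab]
    exact div_le_div_of_nonneg_left ha0.le hΛ0 (by linarith)
  -- at most one zero for each character
  have same : ∀ (x : CharIdx) (ρ₁ ρ₂ : ℂ), ((x.1 : ℕ) : ℝ) ≤ Q → x.2.IsPrimitive →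
      Lf x ρ₁ = 0 → |ρ₁.im| ≤ T → 1 - c / LL Q T ≤ ρ₁.re →
      Lf x ρ₂ = 0 → |ρ₂.im| ≤ T → 1 - c / LL Q T ≤ ρ₂.re → ρ₁ = ρ₂ := by
    intro x ρ₁ ρ₂ hq hp h1 i1 r1 h2 i2 r2
    by_contra hne
    obtain ⟨k1, k2, k3, k4, k5, k6⟩ := key (x, ρ₁) hq hp h1 i1 r1
    obtain ⟨m1, m2, m3, m4, m5, m6⟩ := key (x, ρ₂) hq hp h2 i2 r2
    refine step_real_near hC₀ hC₁ hQ (by linarith) hΛ1 hb0 (by linarith) hbS' HB HZ x.2 k1 hq
      {ρ₁, ρ₂} ?_ ?_ ?_ ?_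
    · intro ρ hρ
      rcases Finset.mem_insert.1 hρ with rfl | hρ
      · exact k4
      · rw [Finset.mem_singleton] at hρ; rw [hρ]; exact m4
    · intro ρ hρ
      rcases Finset.mem_insert.1 hρ with rfl | hρ
      · simp only at k6; linarith
      · rw [Finset.mem_singleton] at hρ; rw [hρ]; simp only at m6; linarith
    · intro ρ hρ
      rcases Finset.mem_insert.1 hρ with rfl | hρ
      · rw [← hab]; exact k3.le
      · rw [Finset.mem_singleton] at hρ; rw [hρ, ← hab]; exact m3.le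
    · rw [Finset.sum_pair hne]
      have k5' : 1 ≤ analyticOrderNatAt (DirichletCharacter.LFunction x.2) ρ₁ := k5
      have m5' : 1 ≤ analyticOrderNatAt (DirichletCharacter.LFunction x.2) ρ₂ := m5
      omega
  constructor
  · rintro ⟨x, ρ⟩ hq hp h0 him hre
    obtain ⟨k1, k2, k3, k4, k5, k6⟩ := key (x, ρ) hq hp h0 him hre
    simp only at hq hp h0 him hre k1 k2 k3 k4 k6
    refine ⟨k1, k2, ?_, ?_⟩
    · -- the conjugate zero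
      have hconj : Lf x ((starRingEnd ℂ) ρ) = 0 := by
        have h := LFunction_conj k1 (conj_eq_of_sq k2) ρ
        have h' : Lf x ((starRingEnd ℂ) ρ) = (starRingEnd ℂ) (Lf x ρ) := h
        rw [h', h0, map_zero]
      have h := same x ρ ((starRingEnd ℂ) ρ) hq hp h0 him hre hconj
        (by rw [Complex.conj_im, abs_neg]; exact him) (by rw [Complex.conj_re]; exact hre)
      have h2 := congrArg Complex.im h
      rw [Complex.conj_im] at h2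
      simp only
      linarith
    · by_contra hcon
      have h2 : 2 ≤ zmul (x, ρ) := by omega
      refine step_real_near hC₀ hC₁ hQ (by linarith) hΛ1 hb0 (by linarith) hbS' HB HZ x.2 k1 hq
        {ρ} ?_ ?_ ?_ ?_
      · intro z hz; rw [Finset.mem_singleton] at hz; rw [hz]; exact k4
      · intro z hz; rw [Finset.mem_singleton] at hz; rw [hz]; linarith
      · intro z hz; rw [Finset.mem_singleton] at hz; rw [hz, ← hab]; exact k3.le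
      · rw [Finset.sum_singleton]; exact h2
  · rintro ⟨x, ρ₁⟩ ⟨y, ρ₂⟩ hq1 hp1 h1 i1 r1 hq2 hp2 h2 i2 r2
    by_cases hxy : x = y
    · subst hxy
      rw [same x ρ₁ ρ₂ hq1 hp1 h1 i1 r1 h2 i2 r2]
    · exfalso
      obtain ⟨k1, k2, k3, k4, k5, k6⟩ := key (x, ρ₁) hq1 hp1 h1 i1 r1
      obtain ⟨m1, m2, m3, m4, m5, m6⟩ := key (y, ρ₂) hq2 hp2 h2 i2 r2
      have hne : (⟨(x.1 : ℕ), x.2⟩ : Σ q : ℕ, DirichletCharacter ℂ q) ≠ ⟨(y.1 : ℕ), y.2⟩ := by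
        intro h
        apply hxy
        obtain ⟨⟨q1, hq1'⟩, χ1⟩ := x
        obtain ⟨⟨q2, hq2'⟩, χ2⟩ := y
        simp only [PNat.mk_coe] at h
        have hq : q1 = q2 := congrArg Sigma.fst h
        subst hq
        have hχ : χ1 = χ2 := by
          have := (Sigma.mk.inj_iff.1 h).2
          exact eq_of_heq this
        rw [hχ]
      simp only at k1 k2 k3 k4 k6 m1 m2 m3 m4 m6
      exact step_page hC₀ hC₁ hQ (by linarith) hΛ1 hb0 (by linarith) hbS' HB HZ x.2 y.2 hp1 hp2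
        k1 m1 k2 m2 hne hq1 hq2 (ρ₁ := ρ₁) (ρ₂ := ρ₂) k5 m5 k4 m4 (by linarith) (by linarith)
        (by rw [← hab]; exact k3.le) (by rw [← hab]; exact m3.le)

end Vale.Agent.P026.H17
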